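import Vale.Agent.P002H97.St
import Vale.Agent.P002D97.Orb
import Vale.Agent.P002B14.ThinM

/-!
# P002H97: the clauses over compact Riemann surfaces
-/

namespace Vale.Agent.P002H

open Set Vale.Agent.P002A Vale.Agent.P002D Vale.Agent.P002F Vale.Agent.P002Z FundamentalGroup
  Vale.Agent.P002B14
open scoped Manifold

theorem dens_of_q1 {G : Type} [Group G] {B : Set G} (h : Q1 B) : Dens G B :=
  fun ι _ R θ r => ⟨fun _ _ => represents θ, (h ι R θ r).1, (h ι R θ r).2⟩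

theorem map_id' {X : Type} [TopologicalSpace X] {s : Set X} (h : s ⊆ s) (x : s)
    (γ : FundamentalGroup s x) : map (ContinuousMap.inclusion h) x γ = γ := by
  obtain ⟨q, rfl⟩ := Path.Homotopic.Quotient.mk_surjective γ
  rfl

open Vale.Agent.P002.H252 in
theorem isOrb_quot' {g n : ℕ} {m : Fin n → ℕ} {H : Type} [Group H] {δ : G0 g n → H}
    (hδ : IsOrb g n m H δ) (P : Set H)
    (hP : ∀ x ∈ P, x = 1 ∨ ∃ (i : Fin n) (h : H) (a : ℤ), x = h * δ (Sum.inr i) ^ a * h⁻¹) :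
    IsOrb g n (fun j => orderOf (δ (Sum.inr j) : H ⧸ Subgroup.normalClosure P))
      (H ⧸ Subgroup.normalClosure P) fun s => (δ s : H ⧸ Subgroup.normalClosure P) := by
  let π := QuotientGroup.mk' (Subgroup.normalClosure P)
  refine ⟨?_, fun j => pow_orderOf_eq_one _, ?_, fun Q _ η h1 h2 => ?_⟩
  · have := map_evalB π δ (word0 g n)
    rw [hδ.rel, map_one] at this
    exact this.symm
  · have := MonoidHom.map_closure π (range δ)
    rw [hδ.gen, ← MonoidHom.range_eq_map, MonoidHom.range_eq_top.2 (QuotientGroup.mk'_surjective _),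
      ← range_comp] at this
    exact this.symm
  · have h3 : ∀ j (a : ℤ), π (δ (Sum.inr j)) ^ a = 1 → η (Sum.inr j) ^ a = 1 := by
      intro j a ha
      obtain ⟨b, rfl⟩ := orderOf_dvd_iff_zpow_eq_one.2 ha
      rw [zpow_mul, zpow_natCast]
      exact (congrArg (· ^ b) (h2 j)).trans (one_zpow b)
    obtain ⟨Φ, hΦ⟩ := hδ.univ Q η h1 fun j => by
      rw [← zpow_natCast]
      refine h3 j _ ?_
      rw [zpow_natCast, ← map_pow, hδ.tors, map_one]
    have hk : Subgroup.normalClosure P ≤ Φ.ker := Subgroup.normalClosure_le_normal fun x hx => by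
      obtain rfl | ⟨i, h, a, rfl⟩ := hP x hx
      · exact one_mem _
      have h4 : π (h * δ (Sum.inr i) ^ a * h⁻¹) = 1 :=
        (QuotientGroup.eq_one_iff _).2 (Subgroup.subset_normalClosure hx)
      rw [map_mul, map_mul, map_inv, map_zpow, conj_eq_one_iff] at h4
      change Φ _ = 1
      rw [map_mul, map_mul, map_inv, map_zpow, hΦ, h3 i a h4, mul_one, mul_inv_cancel]
    exact ⟨QuotientGroup.lift _ Φ hk, hΦ⟩

variable {k : ℕ} {M : Fin k → Type} [∀ i, TopologicalSpace (M i)] [∀ i, T2Space (M i)]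
  [∀ i, CompactSpace (M i)] [∀ i, ConnectedSpace (M i)] [∀ i, ChartedSpace ℂ (M i)]
  [∀ i, IsManifold 𝓘(ℂ) 1 (M i)] {D : ∀ i, Set (M i)} (hD : ∀ i, (D i).Finite)
  {T : Type} [TopologicalSpace T]

include hD

theorem orb {E E' : Set T} (h : E'ᶜ ⊆ Eᶜ) (f : ∀ i, C(↥E'ᶜ, ↥(D i)ᶜ)) (x : ↥E'ᶜ)
    (H : Orbifold E h f x) : Concl E h f x := by
  obtain ⟨P, hP, ψ, hψ, hr, hK⟩ := H
  have hp : ∀ i, PathConnectedSpace ↥(D i)ᶜ := RS.cpc D hD
  choose g n m δ hδ hper using fun i => curve_isOrb (hD i) (f i x)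
  have hδ' := fun i => isOrb_quot' (hδ i) (P i) fun a ha => by
    obtain ⟨p, hp, γ, b, hγ, rfl⟩ := hP i ha
    obtain ⟨φ, y, σ, c, h1, h0, h2⟩ := hγ
    rcases image_loop (ContinuousMap.inclusion (subset_refl (D i)ᶜ))
      ⟨p, Filter.tendsto_comap⟩ ⟨φ, y, σ, c, h1, h0, h2⟩ with h | ⟨q, hq, h⟩
    · rw [map_id'] at h
      exact Or.inl (by rw [show γ = 1 from h, one_pow])
    · rw [map_id'] at h
      obtain ⟨l, y, a, rfl⟩ := hper i q hq γ h
      exact Or.inr ⟨l, y, a * b, by rw [conj_pow, zpow_mul, zpow_natCast]⟩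
  refine dens_of_q1 (q1_of _ fun ι _ R θ r s w C hw hC =>
    dense_of_family hδ' ψ hr hK R θ r s w C (fun j i => ?_) hC)
  obtain ⟨γ, ⟨p, -, h1, h2⟩, h3⟩ := hw j
  rw [← h3, hψ]
  rcases image_loop (f i) (h1 i) h2 with h | ⟨q, hq, h⟩
  · exact Or.inl (by rw [h]; rfl)
  · obtain ⟨l, y, a, hy⟩ := hper i q hq _ h
    exact Or.inr ⟨l, y, a, by rw [hy]; rfl⟩

theorem plain {E : Set T} (f : ∀ i, C(↥Eᶜ, ↥(D i)ᶜ)) (x : ↥Eᶜ) (H : GoodMaps f x) :
    Dens _ (loops E f x) := by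
  have hp : ∀ i, PathConnectedSpace ↥(D i)ᶜ := RS.cpc D hD
  choose g n m δ hδ hper using fun i => curve_isOrb (hD i) (f i x)
  refine dens_of_q1 (q1_of _ fun ι _ R θ r s w C hw hC =>
    dense_of_family hδ _ H.1 H.2 R θ r s w C (fun j i => ?_) hC)
  obtain ⟨p, -, h1, h2⟩ := hw j
  rcases image_loop (f i) (h1 i) h2 with h | ⟨q, hq, h⟩
  · exact Or.inl h
  · exact Or.inr (hper i q hq _ h)

theorem fills {E E' : Set T} (h : E'ᶜ ⊆ Eᶜ) (f : ∀ i, C(↥E'ᶜ, ↥(D i)ᶜ)) (x : ↥E'ᶜ)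
    (H : Fills E f) (h1 : Fin1 x) (h2 : GoodMaps f x) :
    Fin1 (ContinuousMap.inclusion h x) ∧ Concl E h f x := by
  rcases H with rfl | ⟨hT, hf⟩
  · refine ⟨h1, ?_⟩
    have : map (ContinuousMap.inclusion h) x '' loops E' f x = loops E' f x :=
      (image_congr fun γ _ => map_id' h x γ).trans (image_id' _)
    rw [Concl, DensIm, this]
    exact plain hD f x h2
  · obtain ⟨_, _⟩ := h1
    obtain ⟨a, b, c⟩ := RS.thin_q1 D hD h hT f hf x h2.1 h2.2
    exact ⟨⟨a, b⟩, c⟩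

theorem bundle {X : Type} [TopologicalSpace X] (f : ∀ i, C(X, ↥(D i)ᶜ)) (x : X)
    (H : IsBundle f) : Fin1 x ∧ GoodMaps f x := by
  obtain ⟨F, _, y, ⟨_, h1⟩, h2, hb⟩ := H
  have : ∀ i, PathConnectedSpace ↥(D i)ᶜ := RS.cpc D hD
  have hX : PathConnectedSpace X := P002B14.pc (ContinuousMap.pi f) hb
  obtain ⟨h3, j, h4⟩ := P002B14.over f (lsc_pi ℂ D fun i => (hD i).isClosed) hb x y
  have := fun i => RS.fg_curve D hD i (f i x)
  refine ⟨⟨hX, fg_ext _ h3 j fun a ha => h4 (Subgroup.mem_iInf.2 fun i => congrFun ha i)⟩,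
    fun i => ?_, vs_of_le j h4 h2⟩
  have : (map (f i) x).range = ⊤ := MonoidHom.range_eq_top.2 fun a => by
    obtain ⟨b, hb⟩ := h3 (Pi.mulSingle i a)
    exact ⟨b, (congrFun hb i).trans (Pi.mulSingle_eq_same
      (M := fun i => FundamentalGroup ↥(D i)ᶜ (f i x)) i a)⟩
  rw [this]
  infer_instance

theorem cover {X : Type} [TopologicalSpace X] (f : ∀ i, C(X, ↥(D i)ᶜ)) (x₀ : X)
    (H : IsCover f x₀) : Fin1 x₀ ∧ GoodMaps f x₀ := by
  obtain ⟨hX, hc, hx⟩ := H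
  obtain ⟨Φ, hΦ⟩ := RS.pi_map D hD f x₀
  have hinj : Function.Injective (map (ContinuousMap.pi f) x₀) :=
    hc.injective_path_homotopic_map x₀ x₀
  have hidx : (map (ContinuousMap.pi f) x₀).range.FiniteIndex :=
    ⟨index_range_ne_zero hc x₀ (hx.subset fun x hx i => congrFun hx i)⟩
  have := fun i => RS.fg_curve D hD i (f i x₀)
  have : Group.FG (FundamentalGroup (∀ i, ↥(D i)ᶜ) (ContinuousMap.pi f x₀)) :=
    Group.fg_of_surjective (f := Φ.symm.toMonoidHom) Φ.symm.surjective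
  refine ⟨⟨hX, Group.fg_of_surjective
    (f := (MonoidHom.ofInjective hinj).symm.toMonoidHom) (MulEquiv.surjective _)⟩,
    fun i => ?_, ?_⟩
  · let ψ := (Pi.evalMonoidHom _ i).comp Φ.toMonoidHom
    have hψ : Function.Surjective ψ := (Function.surjective_eval i).comp Φ.surjective
    refine ⟨fun h0 => hidx.index_ne_zero (Nat.eq_zero_of_zero_dvd ?_)⟩
    have e : (map (f i) x₀).range = (map (ContinuousMap.pi f) x₀).range.map ψ := by
      rw [← MonoidHom.range_comp]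
      exact congrArg _ (MonoidHom.ext fun a => (hΦ a i).symm)
    rw [← h0, e]
    exact Subgroup.index_map_dvd _ hψ
  · have : Subsingleton ↥(⨅ i, (map (f i) x₀).ker) := ⟨fun a b => Subtype.ext (hinj
      (Φ.injective (funext fun i => by
        rw [hΦ, hΦ, MonoidHom.mem_ker.1 (Subgroup.mem_iInf.1 a.2 i),
          MonoidHom.mem_ker.1 (Subgroup.mem_iInf.1 b.2 i)])))⟩
    exact ⟨⊤, inferInstance, inferInstance⟩

theorem prod (B : Set T) (x : ↥(bdry B D)ᶜ) (h1 : Fin1 (pr₀ B D x))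
    (h2 : VirtSolv (FundamentalGroup _ (pr₀ B D x))) : Full (bdry B D) x := by
  obtain ⟨_, _⟩ := h1
  have : ∀ i, PathConnectedSpace ↥(D i)ᶜ := RS.cpc D hD
  have := fun i => RS.fg_curve D hD i (pr B D i x)
  have e := MulEquiv.ofBijective _ (pr_bij B D x)
  refine ⟨⟨Function.Surjective.pathConnectedSpace (f := glue B D)
    (fun z => ⟨(pr₀ B D z, fun i => pr B D i z), rfl⟩) (glue B D).continuous,
    Group.fg_of_surjective (f := e.symm.toMonoidHom) e.symm.surjective⟩, ?_⟩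
  have := plain hD (pr B D) x ⟨pr_range B D x, pr_ker B D x h2⟩
  simpa only [loops, pr_extends, implies_true, true_and] using this

theorem prod0 : Nonempty ↥(bdry (∅ : Set Unit) D)ᶜ ∧ ∀ x, Full (bdry (∅ : Set Unit) D) x := by
  have : ∀ i, PathConnectedSpace ↥(D i)ᶜ := RS.cpc D hD
  refine ⟨⟨glue ∅ D (⟨(), fun h => h⟩, fun i => Classical.arbitrary _)⟩, fun x => ?_⟩
  have := sub_pi (pr₀ (∅ : Set Unit) D x)
  exact prod hD ∅ x ⟨⟨⟨⟨(), fun h => h⟩⟩, fun x y => Subsingleton.elim x y ▸ Joined.refl x⟩,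
    inferInstance⟩ ⟨⊤, inferInstance, inferInstance⟩

end Vale.Agent.P002H
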