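import Vale.Agent.P002D97.Defs
import Vale.Agent.P002F46.St
import Vale.Agent.P002B14.Defs2

/-!
# P002: the words of the statement on spaces fibred over curves
-/

namespace Vale.Agent.P002H

open Vale.Agent.P002A Vale.Agent.P002D Vale.Agent.P002F FundamentalGroup

variable {k : ℕ} {G G' : Type} [Group G] [Group G'] {H : Fin k → Type} [∀ i, Group (H i)]

/-- The images have finite index and the common kernel is virtually solvable. -/
def Good (ψ : ∀ i, G →* H i) : Prop :=
  (∀ i, (ψ i).range.FiniteIndex) ∧ VirtSolv ↥(⨅ i, (ψ i).ker)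

/-- The `φ i` descend along `j` to a good family `ψ i : G → H i / ⟪P i⟫`. -/
def GoodMod (j : G' →* G) (φ : ∀ i, G' →* H i) (P : ∀ i, Set (H i)) : Prop :=
  ∃ ψ : ∀ i, G →* H i ⧸ Subgroup.normalClosure (P i), (∀ i γ, ψ i (j γ) = ↑(φ i γ)) ∧ Good ψ

variable {X X' : Type} [TopologicalSpace X] [TopologicalSpace X'] {Y : Fin k → Type}
  [∀ i, TopologicalSpace (Y i)]

/-- `GoodMod` for the maps induced on fundamental groups. -/
def OrbMaps (j : C(X', X)) (f : ∀ i, C(X', Y i)) (x : X')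
    (P : ∀ i, Set (FundamentalGroup (Y i) (f i x))) : Prop :=
  GoodMod (map j x) (fun i => map (f i) x) P

/-- `Good` for the maps induced on fundamental groups. -/
def GoodMaps (f : ∀ i, C(X, Y i)) (x : X) : Prop := Good fun i => map (f i) x

/-- `X` is path connected and `π_1(X, x)` is finitely generated. -/
def Fin1 (x : X) : Prop := PathConnectedSpace X ∧ Group.FG (FundamentalGroup X x)

/-- `X → ∏ Y i` is locally trivial, with a path connected fibre whose fundamental group is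
finitely generated and virtually solvable. -/
def IsBundle (f : ∀ i, C(X, Y i)) : Prop :=
  ∃ (F : Type) (_ : TopologicalSpace F) (y : F), Fin1 y ∧ VirtSolv (FundamentalGroup F y) ∧
    ∀ b, ∃ e : Bundle.Trivialization F (ContinuousMap.pi f), b ∈ e.baseSet

/-- `X → ∏ Y i` is a path connected covering with a finite fibre through `x`. -/
def IsCover (f : ∀ i, C(X, Y i)) (x : X) : Prop :=
  PathConnectedSpace X ∧ IsCoveringMap (ContinuousMap.pi f) ∧ {z | ∀ i, f i z = f i x}.Finite

/-- Q1 for `π_1(X)` with boundary loops coming from `B ⊆ π_1(X')`. -/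
def DensIm (j : C(X', X)) (x : X') (B : Set (FundamentalGroup X' x)) : Prop :=
  Dens _ (map j x '' B)

variable {T : Type} [TopologicalSpace T]

/-- The disc loops in `T ∖ E'` with centre in `E` at which all `f i` extend. -/
def loops {D : ∀ i, Set (Y i)} (E : Set T) {E' : Set T} (f : ∀ i, C(↥E'ᶜ, ↥(D i)ᶜ))
    (x : ↥E'ᶜ) : Set (FundamentalGroup ↥E'ᶜ x) :=
  {γ | ∃ p ∈ E, (∀ i, ExtendsAt (f i) p) ∧ IsDiscLoop E' x p γ}

/-- The powers of disc loops with centre in `D`. -/
def pows (D : Set T) (y : ↥Dᶜ) : Set (FundamentalGroup ↥Dᶜ y) :=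
  {a | ∃ p ∈ D, ∃ γ, ∃ m : ℕ, IsDiscLoop D y p γ ∧ a = γ ^ m}

variable {D : ∀ i, Set (Y i)} (E : Set T) {E' : Set T} (h : E'ᶜ ⊆ Eᶜ)
  (f : ∀ i, C(↥E'ᶜ, ↥(D i)ᶜ)) (x : ↥E'ᶜ)

/-- Q1 for `π_1(T ∖ E)` and the images of `loops E f x`. -/
def Concl : Prop := DensIm (ContinuousMap.inclusion h) x (loops E f x)

/-- The `f i` induce a good family of maps from `π_1(T ∖ E)` to orbifold groups. -/
def Orbifold : Prop :=
  ∃ P, (∀ i, P i ⊆ pows (D i) (f i x)) ∧ OrbMaps (ContinuousMap.inclusion h) f x P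

/-- `E' = E`, or `E'` is thin in `T ∖ E` and the `f i` extend at all points of `T ∖ E`. -/
def Fills : Prop := E' = E ∨ P002B14.Thin E E' ∧ ∀ p ∉ E, ∀ i, ExtendsAt (f i) p

/-- `π_1(T ∖ E, x)` is finitely generated and satisfies Q1 for all disc loops centred in `E`. -/
def Full (x : ↥Eᶜ) : Prop := Fin1 x ∧ Dens _ {γ | ∃ p ∈ E, IsDiscLoop E x p γ}

end Vale.Agent.P002H
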